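import Vale.Agent.P370S.St

/-!
Instances made of one chemical element, with polynomially bounded numbers.
-/

namespace Vale.Agent.N370

open Vale.Agent.P370Z Vale.Agent.P370T

/-- `t` is an integer multiple of `1 / q` of absolute value at most `B`. -/
def OnGrid (q B : ℕ) (t : ℚ) : Prop := (∃ z : ℤ, t = z / q) ∧ |t| ≤ B

/-- With `L` the length of the code: all charges are `Z`; all coordinates are multiples of
`1 / q` for one `q ≤ L ^ k`; the thresholds are integers; coordinates and thresholds are at most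
`L ^ k` in absolute value; and `(b - a) ^ k ≥ L`. -/
def Elem (Z k : ℕ) (I : Instance) : Prop :=
  (∀ n ∈ I.nuclei, n.2 = Z) ∧
  (∃ q : ℕ, 1 ≤ q ∧ q ≤ I.code.length ^ k ∧ ∀ n ∈ I.nuclei,
    OnGrid q (I.code.length ^ k) n.1.1 ∧ OnGrid q (I.code.length ^ k) n.1.2.1 ∧
      OnGrid q (I.code.length ^ k) n.1.2.2) ∧
  OnGrid 1 (I.code.length ^ k) I.a ∧ OnGrid 1 (I.code.length ^ k) I.b ∧
  (I.code.length : ℚ) ≤ (I.b - I.a) ^ k

/-- YES instances of the restricted problem. -/
def yesE (Z k : ℕ) : Set Word := {x | ∃ I : Instance, I.code = x ∧ I.Valid ∧ Elem Z k I ∧ E0 I ≤ I.a}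

/-- NO instances of the restricted problem. -/
def noE (Z k : ℕ) : Set Word := {x | ∃ I : Instance, I.code = x ∧ I.Valid ∧ Elem Z k I ∧ I.b ≤ E0 I}

end Vale.Agent.N370
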