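import Vale.Agent.N370.Size
import Vale.Agent.P370S.Fin

/-!
The lattice instances of one element and the reduction.
-/

namespace Vale.Agent.N370

open Finset Vale.Agent.P363.Stmt Vale.Agent.P370Z Vale.Agent.P370Z.Cst
open Vale.Agent.Lib.PolyTime (PT PBd Un Raw Enc)

noncomputable section

/-- The final instance. -/
def latI (c : Cst) (Z : ℕ) (d : CD) : Instance where
  nuclei := (List.range (posL c Z d).length).map fun k =>
    (rnd (c.m d ^ 45) (posL c Z d).length k ((posL c Z d).getD k (0, 0, 0)), Z)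
  N := d.NN
  a := ((⌊(instZ c Z d).a⌋ + 2 : ℤ) : ℚ)
  b := ((⌊(instZ c Z d).b⌋ - 1 : ℤ) : ℚ)

variable {c : Cst} (d : CD) {A : ℝ} {Z : ℕ}

theorem best_mono (h : c.Best A) (g : ℕ) (hg : c.g0 ≤ g) : Cst.Best { c with g0 := g } A := by
  have h1 : 4 ^ c.g0 ≤ 4 ^ g := Nat.pow_le_pow_right (by norm_num) hg
  have h2 : (4 : ℝ) ^ c.g0 ≤ 4 ^ g := by exact_mod_cast h1
  exact ⟨⟨h.kk, h.om, h.H, h.big.trans h2, h.rho.trans h1, h.Hle.trans h1, h.km.trans h1⟩,
    h.num, h.k_ch, h.k_grid, h.k_geo, h.k_asm, h.C_ch, h.H_ge, h.C_F, h.rho_ge, h.k_disc,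
    h.om_le, h.C_z⟩

attribute [local irreducible] kt kT k1 k2 k3 kM kL km eT eN eF eX eY p CD.nT CD.nu CD.nE CD.nD
  CD.SS CD.nq nW nC lam Tq tq bq Tc Cst.E0 sig Cst.m Cst.nuclei

theorem ge_instZ (h : c.Best A) : (instZ c Z d).groundEnergy =
    gE (potU d.NN (posL c Z d).length Z fun k => point ((posL c Z d).getD k (0, 0, 0))) := by
  have e : (instZ c Z d).potential =
      potU d.NN (posL c Z d).length Z fun k => point ((posL c Z d).getD k (0, 0, 0)) := by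
    funext x
    unfold Instance.potential potU repl
    congr 2
    refine sum_congr rfl fun i _ => ?_
    rw [sum_getD (posL c Z d) (0, 0, 0) fun r => (Z : ℝ) / ‖x i - point r‖]
    unfold posL
    rw [sum_rep]
    simp only [instZ, List.map_map]
    congr 1
    refine List.map_congr_left fun n hn => ?_
    rw [min_eq_left (nuc_bd d h hn).2.1]
    simp only [Function.comp_apply]
    push_cast
    ring
  unfold Instance.groundEnergy
  rw [e]
  rfl

theorem ge_latI : (latI c Z d).groundEnergy =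
    gE (potU d.NN (posL c Z d).length Z fun k =>
      point (rnd (c.m d ^ 45) (posL c Z d).length k ((posL c Z d).getD k (0, 0, 0)))) := by
  have e : (latI c Z d).potential = potU d.NN (posL c Z d).length Z fun k =>
      point (rnd (c.m d ^ 45) (posL c Z d).length k ((posL c Z d).getD k (0, 0, 0))) := by
    funext x
    unfold Instance.potential potU repl
    congr 2
    refine sum_congr rfl fun i _ => ?_
    simp only [latI, List.map_map]
    exact sum_range_list _ _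
  unfold Instance.groundEnergy
  rw [e]
  rfl

theorem small (h : c.Best A) {t : ℝ} (ht : |t| ≤ (c.m d : ℝ) ^ 21) :
    16 * (2 / ((c.m d ^ 45 : ℕ) : ℝ)) * (c.m d : ℝ) ^ 14 * (|t| + 1) +
      64 * (2 / ((c.m d ^ 45 : ℕ) : ℝ)) * ((c.m d : ℝ) ^ 14) ^ 3 * d.NN ≤ 1 / 4 := by
  have hm : (10 : ℝ) ^ 7 ≤ c.m d := by exact_mod_cast m_big d h
  have hN : (d.NN : ℝ) ≤ c.m d := by
    refine (sizes (c := c) d).2.1.trans ?_
    unfold P; exact_mod_cast p_le_m d h
  push_cast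
  generalize (c.m d : ℝ) = m at *
  have hm0 : 0 < m := by linarith
  have h1 : |t| + 1 ≤ m ^ 29 := by
    have a1 : (1 : ℝ) ≤ m ^ 21 := one_le_pow₀ (by linarith)
    have a2 : (2 : ℝ) ≤ m ^ 8 := le_trans (by linarith) (le_self_pow₀ (by linarith) (by norm_num))
    calc |t| + 1 ≤ m ^ 21 * 2 := by linarith
      _ ≤ m ^ 21 * m ^ 8 := by gcongr
      _ = m ^ 29 := by ring
  calc 16 * (2 / m ^ 45) * m ^ 14 * (|t| + 1) + 64 * (2 / m ^ 45) * (m ^ 14) ^ 3 * d.NN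
      ≤ 16 * (2 / m ^ 45) * m ^ 14 * m ^ 29 + 64 * (2 / m ^ 45) * (m ^ 14) ^ 3 * m := by gcongr
    _ = 160 / m ^ 2 := by field_simp; ring
    _ ≤ 1 / 4 := by
        rw [div_le_iff₀ (by positivity)]
        nlinarith

theorem W_le (h : c.Best A) (hZP : 19 * Z ≤ 4 ^ c.g0) :
    ((posL c Z d).length : ℝ) * Z ≤ (c.m d : ℝ) ^ 14 := by
  have h1 := (pos_len (Z := Z) d h).2
  have h2 : Z ≤ c.m d := by have := c.g0_le_p d; have := p_le_m d h; omega
  have h3 : (posL c Z d).length * Z ≤ c.m d ^ 14 := by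
    rw [pow_succ]; exact Nat.mul_le_mul h1 h2
  exact_mod_cast h3

theorem lat_up (h : c.Best A) (hZ : 1 ≤ Z) (hZP : 19 * Z ≤ 4 ^ c.g0) (hκ : |kap0| + 1 ≤ 4 ^ c.g0)
    (hE : (instZ c Z d).groundEnergy ≤ ((((instZ c Z d).a : ℚ) : ℝ) : EReal)) :
    (latI c Z d).groundEnergy ≤ ((((latI c Z d).a : ℚ) : ℝ) : EReal) := by
  have hm : (10 : ℝ) ^ 7 ≤ c.m d := by exact_mod_cast m_big d h
  have hq : 1 ≤ c.m d ^ 45 := Nat.one_le_pow _ _ (by have := m_big d h; omega)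
  rw [ge_instZ d h] at hE
  rw [ge_latI]
  refine (ge_up (fun Ψ hΨ => energy_move (Nat.cast_nonneg Z) (W_le d h hZP) (by positivity)
    (by positivity) (fun k hk => rnd_near hq hk _) Ψ hΨ) (by positivity)
    (small d h (thr_bd d h hZ hZP hκ).1) hE).trans (EReal.coe_le_coe_iff.2 ?_)
  have h1 : (instZ c Z d).a + 1 / 2 ≤ (latI c Z d).a := by
    have := Int.lt_floor_add_one (instZ c Z d).a
    simp only [latI]
    push_cast
    linarith
  have h2 := (Rat.cast_le (K := ℝ)).2 h1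
  push_cast at h2
  exact h2

theorem lat_low (h : c.Best A) (hZ : 1 ≤ Z) (hZP : 19 * Z ≤ 4 ^ c.g0) (hκ : |kap0| + 1 ≤ 4 ^ c.g0)
    (hE : ((((instZ c Z d).b : ℚ) : ℝ) : EReal) ≤ (instZ c Z d).groundEnergy) :
    ((((latI c Z d).b : ℚ) : ℝ) : EReal) ≤ (latI c Z d).groundEnergy := by
  have hm : (10 : ℝ) ^ 7 ≤ c.m d := by exact_mod_cast m_big d h
  have hq : 1 ≤ c.m d ^ 45 := Nat.one_le_pow _ _ (by have := m_big d h; omega)
  rw [ge_instZ d h] at hE
  rw [ge_latI]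
  refine le_trans (EReal.coe_le_coe_iff.2 ?_)
    (ge_low (fun Ψ hΨ => energy_move (Nat.cast_nonneg Z) (W_le d h hZP) (by positivity)
    (by positivity) (fun k hk => by rw [norm_sub_rev]; exact rnd_near hq hk _) Ψ hΨ)
    (by positivity) (small d h (thr_bd d h hZ hZP hκ).2.1) hE)
  have h1 : (latI c Z d).b ≤ (instZ c Z d).b - 1 / 2 := by
    have := Int.floor_le (instZ c Z d).b
    simp only [latI]
    push_cast
    linarith
  have h2 := (Rat.cast_le (K := ℝ)).2 h1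
  push_cast at h2
  exact h2

theorem lat_thr (h : c.Best A) (hZ : 1 ≤ Z) (hZP : 19 * Z ≤ 4 ^ c.g0)
    (hκ : |kap0| + 1 ≤ 4 ^ c.g0) :
    OnGrid 1 (c.m d ^ 22) (latI c Z d).a ∧ OnGrid 1 (c.m d ^ 22) (latI c Z d).b ∧
      (c.m d : ℚ) ≤ (latI c Z d).b - (latI c Z d).a := by
  obtain ⟨t1, t2, t3⟩ := thr_bd d h hZ hZP hκ
  have s1 : |(instZ c Z d).a| ≤ (c.m d : ℚ) ^ 21 := by exact_mod_cast t1
  have s2 : |(instZ c Z d).b| ≤ (c.m d : ℚ) ^ 21 := by exact_mod_cast t2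
  have s3 : (c.m d : ℚ) ^ 2 ≤ (instZ c Z d).b - (instZ c Z d).a := by exact_mod_cast t3
  have hm : (10 : ℚ) ^ 7 ≤ c.m d := by exact_mod_cast m_big d h
  have a1 := Int.floor_le (instZ c Z d).a
  have a2 := Int.lt_floor_add_one (instZ c Z d).a
  have a3 := Int.floor_le (instZ c Z d).b
  have a4 := Int.lt_floor_add_one (instZ c Z d).b
  have b1 := abs_le.1 s1
  have b2 := abs_le.1 s2
  have h21 : (1 : ℚ) ≤ (c.m d : ℚ) ^ 21 := one_le_pow₀ (by linarith)
  have h22 : (c.m d : ℚ) ^ 21 + 2 ≤ (c.m d : ℚ) ^ 22 := by rw [pow_succ _ 21]; nlinarith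
  simp only [latI, OnGrid]
  push_cast
  refine ⟨⟨⟨⌊(instZ c Z d).a⌋ + 2, by push_cast; ring⟩, abs_le.2 ⟨by linarith, by linarith⟩⟩,
    ⟨⟨⌊(instZ c Z d).b⌋ - 1, by push_cast; ring⟩, abs_le.2 ⟨by linarith, by linarith⟩⟩, ?_⟩
  nlinarith

theorem lat_mem (h : c.Best A) (hZ : 1 ≤ Z) {n : (ℚ × ℚ × ℚ) × ℕ} (hn : n ∈ (latI c Z d).nuclei) :
    n.2 = Z ∧ OnGrid (c.m d ^ 45 * (posL c Z d).length) (c.m d ^ 5) n.1.1 ∧
      OnGrid (c.m d ^ 45 * (posL c Z d).length) (c.m d ^ 5) n.1.2.1 ∧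
      OnGrid (c.m d ^ 45 * (posL c Z d).length) (c.m d ^ 5) n.1.2.2 := by
  have hq : 1 ≤ c.m d ^ 45 := Nat.one_le_pow _ _ (by have := m_big d h; omega)
  simp only [latI, List.mem_map, List.mem_range] at hn
  obtain ⟨k, hk, rfl⟩ := hn
  have hr : (posL c Z d).getD k (0, 0, 0) ∈ posL c Z d := by
    rw [List.getD_eq_getElem _ _ hk]
    exact List.getElem_mem hk
  obtain ⟨r1, r2, r3⟩ := pos_bd d h hZ hr
  exact ⟨rfl, rnd_grid hq hk r1 r2 r3⟩

theorem lat_ok (h : c.Best A) (hZ : 1 ≤ Z) (hZP : 19 * Z ≤ 4 ^ c.g0)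
    (hκ : |kap0| + 1 ≤ 4 ^ c.g0) : (latI c Z d).Valid ∧ Elem Z 80 (latI c Z d) := by
  obtain ⟨t1, t2, t3⟩ := lat_thr d h hZ hZP hκ
  obtain ⟨M1, M2⟩ := pos_len (Z := Z) d h
  have hm := m_big d h
  have hm0 : 1 ≤ c.m d := by omega
  have hq : 1 ≤ c.m d ^ 45 := Nat.one_le_pow _ _ hm0
  have hlen : (latI c Z d).nuclei.length = (posL c Z d).length := by
    simp only [latI, List.length_map, List.length_range]
  have hL : c.m d ≤ (latI c Z d).code.length := M1.trans (hlen ▸ code_ge _)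
  have hpow : ∀ j ≤ 80, c.m d ^ j ≤ (latI c Z d).code.length ^ 80 := fun j hj =>
    (Nat.pow_le_pow_right hm0 hj).trans (Nat.pow_le_pow_left hL _)
  have hQ1 : 1 ≤ c.m d ^ 45 * (posL c Z d).length := Nat.mul_pos hq (by omega)
  have hQ : c.m d ^ 45 * (posL c Z d).length ≤ c.m d ^ 58 :=
    (Nat.mul_le_mul_left _ M2).trans (le_of_eq (by ring))
  have hup : ∀ j ≤ 63, c.m d ^ j ≤ c.m d ^ 63 := fun j hj => Nat.pow_le_pow_right hm0 hj
  have hrat : ∀ {q j : ℕ} {t : ℚ}, OnGrid q (c.m d ^ j) t → 1 ≤ q → q ≤ c.m d ^ (63 - j) →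
      j ≤ 63 → (ratW t).length ≤ 9 * c.m d ^ 63 := by
    intro q j t ht h1 h2 h3
    obtain ⟨a1, a2⟩ := ht.size h1
    refine len_ratW (a1.trans ?_) (a2.trans (h2.trans (hup _ (by omega))))
    refine (Nat.mul_le_mul_left _ h2).trans (le_of_eq ?_)
    rw [← pow_add]
    congr 1
    omega
  have hZm : Z ≤ c.m d := by have := c.g0_le_p d; have := p_le_m d h; omega
  have hNm : d.NN ≤ c.m d := by
    have := (sizes (c := c) d).2.1
    unfold P at this
    exact le_trans (by exact_mod_cast this) (p_le_m d h)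
  have h63 : c.m d ≤ c.m d ^ 63 := Nat.le_self_pow (by norm_num) _
  have hcode : (latI c Z d).code.length ≤ c.m d ^ 80 := by
    refine (code_le (latI c Z d) (B := c.m d ^ 63) (by omega) (by omega) (hNm.trans h63)
      (fun n hn => ?_) (hrat t1 le_rfl (Nat.one_le_pow _ _ hm0) (by norm_num))
      (hrat t2 le_rfl (Nat.one_le_pow _ _ hm0) (by norm_num))).trans ?_
    · obtain ⟨a0, a1, a2, a3⟩ := lat_mem d h hZ hn
      exact ⟨hrat a1 hQ1 hQ (by norm_num), hrat a2 hQ1 hQ (by norm_num),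
        hrat a3 hQ1 hQ (by norm_num), a0 ▸ hZm.trans h63⟩
    · rw [hlen]
      calc 300 * ((posL c Z d).length * c.m d ^ 63) ≤ c.m d * (c.m d ^ 13 * c.m d ^ 63) := by
            gcongr; omega
        _ = c.m d ^ 77 := by ring
        _ ≤ _ := Nat.pow_le_pow_right hm0 (by norm_num)
  have hm' : (1 : ℚ) ≤ c.m d := by exact_mod_cast hm0
  refine ⟨⟨?_, ?_, fun n hn => (lat_mem d h hZ hn).1 ▸ hZ, ?_, by linarith⟩,
    fun n hn => (lat_mem d h hZ hn).1, ⟨_, hQ1, hQ.trans (hpow _ (by norm_num)), fun n hn => ?_⟩,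
    t1.mono (hpow _ (by norm_num)), t2.mono (hpow _ (by norm_num)), ?_⟩
  · intro h0
    rw [h0] at hlen
    simp only [List.length_nil] at hlen
    omega
  · simp only [latI, List.map_map]
    refine List.Nodup.map_on (fun k hk k' hk' he => ?_) List.nodup_range
    exact rnd_inj hq (List.mem_range.1 hk) (List.mem_range.1 hk') he
  · change 1 ≤ d.NN
    unfold CD.NN
    omega
  · obtain ⟨-, a1, a2, a3⟩ := lat_mem d h hZ hn
    exact ⟨a1.mono (hpow _ (by norm_num)), a2.mono (hpow _ (by norm_num)),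
      a3.mono (hpow _ (by norm_num))⟩
  · calc ((latI c Z d).code.length : ℚ) ≤ (c.m d : ℚ) ^ 80 := by exact_mod_cast hcode
      _ ≤ _ := pow_le_pow_left₀ (by linarith) t3 80

open PTQ in
theorem pt_lat (c : Cst) (Z : ℕ) (hp : PT ∅ fun n : Un => c.pHat n.v)
    (hk : PT ∅ fun n : Un => c.kHat n.v) (V : Word → Verifier)
    (hV : PolyTime fun x => (V x).code) : PolyTime fun x => (latI c Z (V x).cd).code := by
  have hid : PT ∅ fun d : CD => d := PT.id
  have hpos : PT ∅ fun d : CD => posL c Z d := by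
    unfold posL
    refine PT.flatMap (pt_nuclei c hp) ?_
    refine PT.replicate (PT.min PT.snd'.snd (PT.const 27))
      ((PBd.const 27).mono fun a => min_le_right _ _) ?_
    exact (PT_ratDiv PT.snd'.fst.fst (PT.const _)).pair
      ((PT_ratDiv PT.snd'.fst.snd.fst (PT.const _)).pair
        (PT_ratDiv PT.snd'.fst.snd.snd (PT.const _)))
  have hl : PT ∅ fun d : CD => ((Z : ℚ) * c.lam d) ^ 2 :=
    PT_ratPowConst (PT_ratMul (PT.const _) (PT_lam c hp hid)) 2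
  have ha : PT ∅ fun d : CD => (instZ c Z d).a :=
    PT_ratMul hl (PT_ratAdd (PT_ebase c hp hk hid)
      (PT_ratMul (PT.const _) (PT_ratDiv (PT_sig c hp hid) (PT.const _))))
  have hb : PT ∅ fun d : CD => (instZ c Z d).b :=
    PT_ratMul hl (PT_ratAdd (PT_ebase c hp hk hid)
      (PT_ratMul (PT.const _) (PT_ratDiv (PT_sig c hp hid) (PT.const _))))
  refine pt_glue (latI c Z) ?_ (PT.mkUn (PT_NN hid) (PBd_NN hid))
    (PT_intCast ((PT_floor ha).intAdd (PT.const 2)))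
    (PT_intCast ((PT_floor hb).intSub (PT.const 1))) V hV
  refine PT.map (l := fun d : CD => List.range (posL c Z d).length)
    (PT.range hpos.length (PBd.length hpos)) ?_
  have h1 : PT ∅ fun x : CD × ℕ => posL c Z x.1 := hpos.comp PT.fst'
  have hr : PT ∅ fun x : CD × ℕ => (posL c Z x.1).getD x.2 (0, 0, 0) :=
    PT.getD h1 PT.snd' (PT.const _)
  have hq : PT ∅ fun x : CD × ℕ => ((c.m x.1 ^ 45 : ℕ) : ℚ) :=
    PT_natCast ((PT_m c PT.fst').powConst 45)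
  have hM : PT ∅ fun x : CD × ℕ => (((posL c Z x.1).length : ℕ) : ℚ) := PT_natCast h1.length
  refine PT.pair (PT.pair ?_ (PT.pair ?_ ?_)) (PT.const Z)
  · exact PT_ratDiv (PT_ratAdd (PT_ratMul (PT_intCast (PT_floor (PT_ratMul hr.fst hq))) hM)
      (PT_natCast PT.snd')) (PT_ratMul hq hM)
  · exact PT_ratDiv (PT_intCast (PT_floor (PT_ratMul hr.snd.fst hq))) hq
  · exact PT_ratDiv (PT_intCast (PT_floor (PT_ratMul hr.snd.snd hq))) hq

theorem E0_ge (I : Instance) : ((P370T.E0 I : ℝ) : EReal) = I.groundEnergy := by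
  rw [P370T.E0_eq]
  exact P370S.E0_eq I

theorem hard_elem (hZ : 1 ≤ Z) : QMAHard (yesE Z 80) (noE Z 80) := by
  rintro Y X ⟨V, hV, hY, hX⟩
  obtain ⟨c0, A, h0, hp, hk⟩ := exists_best
  obtain ⟨j, hj⟩ := exists_nat_ge (|kap0| + 1)
  have hg : c0.g0 + 19 * Z + j < 4 ^ (c0.g0 + 19 * Z + j) := Nat.lt_pow_self (by norm_num)
  have h := best_mono h0 (c0.g0 + 19 * Z + j) (by omega)
  set c : Cst := { c0 with g0 := c0.g0 + 19 * Z + j } with hc
  have hZP : 19 * Z ≤ 4 ^ c.g0 := by change 19 * Z ≤ 4 ^ (c0.g0 + 19 * Z + j); omega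
  have hκ : |kap0| + 1 ≤ 4 ^ c.g0 := by
    refine hj.trans ?_
    have : j ≤ 4 ^ c.g0 := by change j ≤ 4 ^ (c0.g0 + 19 * Z + j); omega
    exact_mod_cast this
  refine ⟨fun x => (latI c Z (V x).cd).code, pt_lat c Z hp hk V hV, fun x hx => ?_,
    fun x hx => ?_⟩
  · obtain ⟨ψ, h1, h2⟩ := hY x hx
    refine ⟨_, rfl, (lat_ok _ h hZ hZP hκ).1, (lat_ok _ h hZ hZP hκ).2, ?_⟩
    rw [← EReal.coe_le_coe_iff, E0_ge]
    exact lat_up _ h hZ hZP hκ (upZ _ h hZ hZP (kit_up (V x) ψ h1 h2))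
  · refine ⟨_, rfl, (lat_ok _ h hZ hZP hκ).1, (lat_ok _ h hZ hZP hκ).2, ?_⟩
    rw [← EReal.coe_le_coe_iff, E0_ge]
    exact lat_low _ h hZ hZP hκ (lowZ _ h hZ hZP (kit_low (V x) (hX x hx)))

end

end Vale.Agent.N370
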