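import Vale.Agent.P370Z.BRIDGE.Main

/-!
Stability of the electronic energy under small displacements of the nuclei.
-/

namespace Vale.Agent.N370

open MeasureTheory Finset Filter
open Vale.Agent.P363.Stmt Vale.Agent.P363.R.Sob Vale.Agent.P363.H382 Vale.Agent.P370Z

noncomputable section

variable {N : ℕ}

/-- The repulsion of the electrons. -/
def repl (x : Conf N) : ℝ := ∑ i, ∑ j ∈ Ioi i, 1 / ‖x i - x j‖

/-- The potential of `M` nuclei of charge `Z` at the points `u k`. -/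
def potU (N M : ℕ) (Z : ℝ) (u : ℕ → R3) (x : Conf N) : ℝ :=
  -(∑ i, ∑ k ∈ range M, Z / ‖x i - u k‖) + repl x

def att (Ψ : ElectronState N) (s : Fin N → Fin 2) (i : Fin N) (a : R3) : ℝ :=
  ∫ x, ‖Ψ.amp s x‖ ^ 2 / ‖x i - a‖

def kin (Ψ : ElectronState N) (s : Fin N → Fin 2) (i : Fin N) : ℝ :=
  ∑ k, ∫ x, ‖Ψ.grad s i k x‖ ^ 2

theorem kin_nonneg (Ψ : ElectronState N) (s : Fin N → Fin 2) (i : Fin N) : 0 ≤ kin Ψ s i :=
  sum_nonneg fun _ _ => integral_nonneg fun _ => sq_nonneg _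

theorem proj_dir (i : Fin N) (k : Fin 3) :
    (ContinuousLinearMap.proj i : Conf N →L[ℝ] R3) (dir i k) = EuclideanSpace.single k 1 := by
  simp [dir, e3]

theorem att_int (Ψ : ElectronState N) (s : Fin N → Fin 2) (i : Fin N) (a : R3) :
    Integrable (fun x : Conf N => ‖Ψ.amp s x‖ ^ 2 / ‖x i - a‖) :=
  (coulomb_le (ContinuousLinearMap.proj i : Conf N →L[ℝ] R3) a (dir i) (proj_dir i)
    (amp_L2 Ψ s) (grad_L2 Ψ s i) (grad_WD Ψ s i)).1

theorem att_le (Ψ : ElectronState N) (s : Fin N → Fin 2) (i : Fin N) (a : R3) {η : ℝ}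
    (hη : 0 < η) : att Ψ s i a ≤ η * kin Ψ s i + 1 / η * ∫ x, ‖Ψ.amp s x‖ ^ 2 :=
  (coulomb_le (ContinuousLinearMap.proj i : Conf N →L[ℝ] R3) a (dir i) (proj_dir i)
    (amp_L2 Ψ s) (grad_L2 Ψ s i) (grad_WD Ψ s i)).2 η hη

theorem inv_sub_le {a b ε : ℝ} (ha : 0 ≤ a) (hb : 0 ≤ b) (h1 : a ≤ b + ε) (h2 : b ≤ a + ε) :
    1 / a ≤ 1 / b + ε * (1 / a ^ 2) := by
  have hε : 0 ≤ ε := by linarith
  rcases ha.eq_or_lt with h0 | h0
  · rw [← h0]
    simp only [div_zero, ne_eq, OfNat.ofNat_ne_zero, not_false_eq_true, zero_pow, mul_zero,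
      add_zero]
    positivity
  · rcases hb.eq_or_lt with h3 | h3
    · rw [← h3, div_zero, zero_add, mul_one_div, div_le_div_iff₀ h0 (by positivity)]
      rw [← h3] at h1
      nlinarith
    · rcases le_total b a with h4 | h4
      · have : 1 / a ≤ 1 / b := one_div_le_one_div_of_le h3 h4
        have : 0 ≤ ε * (1 / a ^ 2) := by positivity
        linarith
      · have e : 1 / a - 1 / b = (b - a) / (a * b) := by field_simp
        have h5 : (b - a) / (a * b) ≤ ε / a ^ 2 := by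
          refine div_le_div₀ hε (by linarith) (by positivity) ?_
          nlinarith
        rw [mul_one_div]
        linarith

theorem att_move (Ψ : ElectronState N) (s : Fin N → Fin 2) (i : Fin N) {a b : R3} {ε : ℝ}
    (h : ‖a - b‖ ≤ ε) : att Ψ s i a ≤ att Ψ s i b + 4 * ε * kin Ψ s i := by
  obtain ⟨h1, h2⟩ := hardy (μ := volume) (ContinuousLinearMap.proj i : Conf N →L[ℝ] R3) a (dir i)
    (proj_dir i) (amp_L2 Ψ s) (grad_L2 Ψ s i) (grad_WD Ψ s i)
  have hε : 0 ≤ ε := (norm_nonneg _).trans h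
  replace h1 : Integrable (fun x : Conf N => ‖Ψ.amp s x‖ ^ 2 / ‖x i - a‖ ^ 2) := h1
  have h3 : att Ψ s i a ≤ ∫ x : Conf N, (‖Ψ.amp s x‖ ^ 2 / ‖x i - b‖ +
      ε * (‖Ψ.amp s x‖ ^ 2 / ‖x i - a‖ ^ 2)) := by
    refine integral_mono (att_int Ψ s i a) ((att_int Ψ s i b).add (h1.const_mul ε)) fun x => ?_
    have a1 : ‖x i - a‖ ≤ ‖x i - b‖ + ε := by
      have := norm_sub_le_norm_sub_add_norm_sub (x i) b a
      rw [norm_sub_rev b a] at this
      linarith
    have a2 : ‖x i - b‖ ≤ ‖x i - a‖ + ε := by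
      have := norm_sub_le_norm_sub_add_norm_sub (x i) a b
      linarith
    have a3 := mul_le_mul_of_nonneg_left (inv_sub_le (norm_nonneg _) (norm_nonneg _) a1 a2)
      (sq_nonneg ‖Ψ.amp s x‖)
    calc ‖Ψ.amp s x‖ ^ 2 / ‖x i - a‖ = ‖Ψ.amp s x‖ ^ 2 * (1 / ‖x i - a‖) := by ring
      _ ≤ _ := a3
      _ = _ := by ring
  rw [integral_add (att_int Ψ s i b) (h1.const_mul ε), integral_const_mul] at h3
  have h4 := mul_le_mul_of_nonneg_left h2 hε
  unfold kin
  change ε * ∫ x : Conf N, ‖Ψ.amp s x‖ ^ 2 / ‖x i - a‖ ^ 2 ≤ _ at h4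
  unfold att at h3 ⊢
  linarith

theorem repl_int (Ψ : ElectronState N) (s : Fin N → Fin 2) :
    Integrable (fun x : Conf N => repl x * ‖Ψ.amp s x‖ ^ 2) := by
  have e : (fun x : Conf N => repl x * ‖Ψ.amp s x‖ ^ 2) =
      fun x => ∑ i, ∑ j ∈ Ioi i, ‖Ψ.amp s x‖ ^ 2 / ‖x i - x j - 0‖ := by
    funext x
    unfold repl
    simp only [sum_mul, sub_zero]
    exact sum_congr rfl fun i _ => sum_congr rfl fun j _ => by ring
  rw [e]
  refine integrable_finsetSum _ fun i _ => integrable_finsetSum _ fun j hj => ?_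
  have hij : j ≠ i := (mem_Ioi.1 hj).ne'
  let p : Conf N →L[ℝ] R3 := (ContinuousLinearMap.proj (R := ℝ) (φ := fun _ : Fin N => R3) i) -
    ContinuousLinearMap.proj (R := ℝ) (φ := fun _ : Fin N => R3) j
  have hp0 : ∀ x : Conf N, p x = x i - x j := fun x => rfl
  have hp : ∀ k : Fin 3, p (dir i k) = EuclideanSpace.single k 1 := fun k => by
    rw [hp0]
    simp [dir, e3, hij]
  have h := (coulomb_le (μ := volume) p 0 (dir i) hp (amp_L2 Ψ s) (grad_L2 Ψ s i)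
    (grad_WD Ψ s i)).1
  simp only [hp0] at h
  exact h

theorem energy_potU (M : ℕ) (Z : ℝ) (u : ℕ → R3) (Ψ : ElectronState N) :
    energy (potU N M Z u) Ψ = (1 / 2) * ∑ s, ∑ i, kin Ψ s i -
      Z * ∑ s, ∑ i, ∑ k ∈ range M, att Ψ s i (u k) + ∑ s, ∫ x, repl x * ‖Ψ.amp s x‖ ^ 2 := by
  rw [energy_eq, potE, sub_add_eq_add_sub, add_sub_assoc, mul_sum univ _ Z, ← sum_sub_distrib]
  congr 1
  refine sum_congr rfl fun s _ => ?_
  have e : (fun x : Conf N => potU N M Z u x * ‖Ψ.amp s x‖ ^ 2) = fun x =>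
      repl x * ‖Ψ.amp s x‖ ^ 2 - Z * ∑ i, ∑ k ∈ range M, ‖Ψ.amp s x‖ ^ 2 / ‖x i - u k‖ := by
    funext x
    unfold potU
    rw [add_mul, neg_mul, neg_add_eq_sub]
    congr 1
    simp only [sum_mul, mul_sum]
    exact sum_congr rfl fun i _ => sum_congr rfl fun j _ => by ring
  rw [e, integral_sub (repl_int Ψ s) ((integrable_finsetSum _ fun i _ =>
    integrable_finsetSum _ fun k _ => att_int Ψ s i (u k)).const_mul Z), integral_const_mul,
    integral_finsetSum _ fun i _ => integrable_finsetSum _ fun k _ => att_int Ψ s i (u k)]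
  congr 2
  exact sum_congr rfl fun i _ => integral_finsetSum _ fun k _ => att_int Ψ s i (u k)

/-- Moving every nucleus by at most `ε`. -/
theorem energy_move {M : ℕ} {Z ε W : ℝ} (hZ : 0 ≤ Z) (hW : M * Z ≤ W) (hW0 : 0 < W) (hε : 0 ≤ ε)
    {u v : ℕ → R3} (h : ∀ k < M, ‖u k - v k‖ ≤ ε) (Ψ : ElectronState N) (hΨ : normSq Ψ = 1) :
    energy (potU N M Z v) Ψ ≤
      (1 + 16 * ε * W) * energy (potU N M Z u) Ψ + 64 * ε * W ^ 3 * N := by
  rw [energy_potU, energy_potU]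
  set K := ∑ s, ∑ i, kin Ψ s i with hK
  set R := ∑ s, ∫ x, repl x * ‖Ψ.amp s x‖ ^ 2 with hR
  set Au := ∑ s, ∑ i, ∑ k ∈ range M, att Ψ s i (u k) with hAu
  set Av := ∑ s, ∑ i, ∑ k ∈ range M, att Ψ s i (v k) with hAv
  have hK0 : 0 ≤ K := sum_nonneg fun s _ => sum_nonneg fun i _ => kin_nonneg Ψ s i
  have hR0 : 0 ≤ R := sum_nonneg fun s _ => integral_nonneg fun x =>
    mul_nonneg (sum_nonneg fun i _ => sum_nonneg fun j _ => by positivity) (sq_nonneg _)
  have h1 : Au ≤ Av + M * (4 * ε * K) := by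
    have : Au ≤ ∑ s, ∑ i, ∑ k ∈ range M, (att Ψ s i (v k) + 4 * ε * kin Ψ s i) :=
      sum_le_sum fun s _ => sum_le_sum fun i _ => sum_le_sum fun k hk =>
        att_move Ψ s i (h k (mem_range.1 hk))
    refine this.trans (le_of_eq ?_)
    simp only [sum_add_distrib, sum_const, card_range, nsmul_eq_mul, ← mul_sum, hAv, hK]
  have h2 : Au ≤ M * (1 / (4 * W) * K + 4 * W * N) := by
    have : Au ≤ ∑ s, ∑ i, ∑ _k ∈ range M,
        (1 / (4 * W) * kin Ψ s i + 1 / (1 / (4 * W)) * ∫ x, ‖Ψ.amp s x‖ ^ 2) :=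
      sum_le_sum fun s _ => sum_le_sum fun i _ => sum_le_sum fun k _ =>
        att_le Ψ s i _ (by positivity)
    refine this.trans (le_of_eq ?_)
    have e := normSq_eq Ψ
    rw [hΨ] at e
    simp only [sum_add_distrib, sum_const, card_range, nsmul_eq_mul, ← mul_sum, card_univ,
      Fintype.card_fin, ← hK, ← e, one_div_one_div]
    ring
  have hM : (0 : ℝ) ≤ M := Nat.cast_nonneg _
  have hN : (0 : ℝ) ≤ N := Nat.cast_nonneg _
  have h3 : Z * Au ≤ Z * Av + W * (4 * ε * K) := by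
    have a1 := mul_le_mul_of_nonneg_left h1 hZ
    have a2 := mul_le_mul_of_nonneg_right hW (show 0 ≤ 4 * ε * K by positivity)
    nlinarith
  have h4 : Z * Au ≤ K / 4 + 4 * W ^ 2 * N := by
    have a1 := mul_le_mul_of_nonneg_left h2 hZ
    have a2 := mul_le_mul_of_nonneg_right hW
      (show 0 ≤ 1 / (4 * W) * K + 4 * W * N by positivity)
    have a3 : W * (1 / (4 * W) * K + 4 * W * N) = K / 4 + 4 * W ^ 2 * N := by
      field_simp
    nlinarith
  have h5 : K / 4 ≤ (1 / 2 * K - Z * Au + R) + 4 * W ^ 2 * N := by linarith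
  have h6 := mul_le_mul_of_nonneg_left h5 (show 0 ≤ 16 * ε * W by positivity)
  nlinarith

end

end Vale.Agent.N370
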