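import Vale.Agent.N370.Pert
import Vale.Agent.N370.Defs

/-!
Rounding the positions to a lattice; lengths of codes.
-/

namespace Vale.Agent.N370

open Finset Vale.Agent.P363.Stmt Vale.Agent.P370Z

noncomputable section

/-- The infimum of the energy over normalized states. -/
def gE {N : ℕ} (w : Conf N → ℝ) : EReal :=
  ⨅ Ψ : {Ψ : ElectronState N // normSq Ψ = 1}, ((energy w Ψ.1 : ℝ) : EReal)

theorem ge_up {N : ℕ} {w w' : Conf N → ℝ} {κ κ' a : ℝ}
    (h : ∀ Ψ, normSq Ψ = 1 → energy w' Ψ ≤ (1 + κ) * energy w Ψ + κ') (hκ : 0 ≤ κ)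
    (hs : κ * (|a| + 1) + κ' ≤ 1 / 4) (ha : gE w ≤ (a : EReal)) :
    gE w' ≤ ((a + 1 / 2 : ℝ) : EReal) := by
  have h1 : gE w < ((a + 1 / 4 : ℝ) : EReal) :=
    ha.trans_lt (EReal.coe_lt_coe_iff.2 (by linarith))
  obtain ⟨Ψ, hΨ⟩ := iInf_lt_iff.1 h1
  have h2 := EReal.coe_lt_coe_iff.1 hΨ
  refine iInf_le_of_le Ψ (EReal.coe_le_coe_iff.2 ((h Ψ.1 Ψ.2).trans ?_))
  have h3 : (1 + κ) * energy w Ψ.1 ≤ (1 + κ) * (a + 1 / 4) :=
    mul_le_mul_of_nonneg_left h2.le (by linarith)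
  have h4 : κ * (a + 1 / 4) ≤ κ * (|a| + 1) :=
    mul_le_mul_of_nonneg_left (by linarith [le_abs_self a]) hκ
  nlinarith

theorem ge_low {N : ℕ} {w w' : Conf N → ℝ} {κ κ' b : ℝ}
    (h : ∀ Ψ, normSq Ψ = 1 → energy w Ψ ≤ (1 + κ) * energy w' Ψ + κ') (hκ : 0 ≤ κ)
    (hs : κ * (|b| + 1) + κ' ≤ 1 / 4) (hb : (b : EReal) ≤ gE w) :
    ((b - 1 / 2 : ℝ) : EReal) ≤ gE w' := by
  refine le_iInf fun Ψ => EReal.coe_le_coe_iff.2 ?_
  have h1 : b ≤ energy w Ψ.1 := EReal.coe_le_coe_iff.1 (hb.trans (iInf_le _ Ψ))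
  have h2 := h Ψ.1 Ψ.2
  by_contra hc
  push Not at hc
  have h3 : (1 + κ) * energy w' Ψ.1 ≤ (1 + κ) * (b - 1 / 2) :=
    mul_le_mul_of_nonneg_left hc.le (by linarith)
  have h4 : κ * (b - 1 / 2) ≤ κ * (|b| + 1) :=
    mul_le_mul_of_nonneg_left (by linarith [le_abs_self b]) hκ
  nlinarith

/-- The rounded position of the nucleus number `k` out of `M`. -/
def rnd (q M k : ℕ) (r : ℚ × ℚ × ℚ) : ℚ × ℚ × ℚ :=
  (((⌊r.1 * q⌋ : ℤ) * M + k) / (q * M), (⌊r.2.1 * q⌋ : ℤ) / q, (⌊r.2.2 * q⌋ : ℤ) / q)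

theorem floor_near {q : ℕ} (hq : 1 ≤ q) (t : ℚ) : |t - (⌊t * q⌋ : ℤ) / q| ≤ 1 / q := by
  have hq' : (0 : ℚ) < q := by exact_mod_cast hq
  have h1 := Int.floor_le (t * q)
  have h2 := Int.lt_floor_add_one (t * q)
  have e : t - (⌊t * q⌋ : ℤ) / q = (t * q - (⌊t * q⌋ : ℤ)) / q := by field_simp
  rw [e, abs_div, abs_of_pos hq']
  refine div_le_div_of_nonneg_right (abs_le.2 ⟨by linarith, by linarith⟩) hq'.le

theorem first_near {q M k : ℕ} (hq : 1 ≤ q) (hk : k < M) (t : ℚ) :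
    |t - ((⌊t * q⌋ : ℤ) * M + k) / (q * M)| ≤ 1 / q := by
  have hq' : (0 : ℚ) < q := by exact_mod_cast hq
  have hM : (0 : ℚ) < M := by exact_mod_cast (by omega : 0 < M)
  have hk' : (k : ℚ) / M ≤ 1 := by
    rw [div_le_one hM]; exact_mod_cast hk.le
  have hk0 : (0 : ℚ) ≤ k / M := by positivity
  have h1 := Int.floor_le (t * q)
  have h2 := Int.lt_floor_add_one (t * q)
  have e : t - ((⌊t * q⌋ : ℤ) * M + k) / (q * M) = (t * q - (⌊t * q⌋ : ℤ) - k / M) / q := by
    field_simp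
    ring
  rw [e, abs_div, abs_of_pos hq']
  refine div_le_div_of_nonneg_right (abs_le.2 ⟨by linarith, by linarith⟩) hq'.le

theorem point_near {r r' : ℚ × ℚ × ℚ} {e : ℚ} (h1 : |r.1 - r'.1| ≤ e) (h2 : |r.2.1 - r'.2.1| ≤ e)
    (h3 : |r.2.2 - r'.2.2| ≤ e) : ‖point r - point r'‖ ≤ 2 * (e : ℝ) := by
  have he : (0 : ℝ) ≤ e := by exact_mod_cast (abs_nonneg _).trans h1
  have a1 : |(r.1 : ℝ) - r'.1| ≤ e := by exact_mod_cast h1
  have a2 : |(r.2.1 : ℝ) - r'.2.1| ≤ e := by exact_mod_cast h2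
  have a3 : |(r.2.2 : ℝ) - r'.2.2| ≤ e := by exact_mod_cast h3
  rw [EuclideanSpace.norm_eq]
  refine Real.sqrt_le_iff.2 ⟨by linarith, ?_⟩
  rw [Fin.sum_univ_three]
  simp only [point, PiLp.sub_apply, Matrix.cons_val_zero, Matrix.cons_val_one,
    Matrix.cons_val_two, Matrix.head_cons, Matrix.tail_cons, Real.norm_eq_abs]
  have b1 := pow_le_pow_left₀ (abs_nonneg _) a1 2
  have b2 := pow_le_pow_left₀ (abs_nonneg _) a2 2
  have b3 := pow_le_pow_left₀ (abs_nonneg _) a3 2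
  nlinarith

theorem rnd_near {q M k : ℕ} (hq : 1 ≤ q) (hk : k < M) (r : ℚ × ℚ × ℚ) :
    ‖point r - point (rnd q M k r)‖ ≤ 2 / q := by
  have := point_near (r := r) (r' := rnd q M k r) (e := 1 / q) (first_near hq hk _)
    (floor_near hq _) (floor_near hq _)
  push_cast at this
  rwa [mul_one_div] at this

theorem rnd_inj {q M k k' : ℕ} (hq : 1 ≤ q) (hk : k < M) (hk' : k' < M) {r r' : ℚ × ℚ × ℚ}
    (h : rnd q M k r = rnd q M k' r') : k = k' := by
  have hq' : (0 : ℚ) < q := by exact_mod_cast hq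
  have hM : (0 : ℚ) < M := by exact_mod_cast (by omega : 0 < M)
  have h1 := congrArg Prod.fst h
  simp only [rnd] at h1
  rw [div_left_inj' (by positivity)] at h1
  have h2 : ⌊r.1 * q⌋ * M + k = ⌊r'.1 * q⌋ * M + k' := by exact_mod_cast h1
  have h3 := congrArg (fun z : ℤ => z % M) h2
  simp only [Int.mul_add_emod_self_right] at h3
  rw [Int.emod_eq_of_lt (by omega) (by omega), Int.emod_eq_of_lt (by omega) (by omega)] at h3
  exact_mod_cast h3

theorem near_bd {t t' : ℚ} {q B : ℕ} (hq : 1 ≤ q) (h : |t - t'| ≤ 1 / q) (hB : |t| + 1 ≤ B) :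
    |t'| ≤ B := by
  have hq' : (1 : ℚ) ≤ q := by exact_mod_cast hq
  have h1 : (1 : ℚ) / q ≤ 1 := by rw [div_le_one (by linarith)]; exact hq'
  have h2 := abs_sub_abs_le_abs_sub t' t
  rw [abs_sub_comm] at h2
  linarith

theorem rnd_grid {q M k B : ℕ} (hq : 1 ≤ q) (hk : k < M) {r : ℚ × ℚ × ℚ} (h1 : |r.1| + 1 ≤ B)
    (h2 : |r.2.1| + 1 ≤ B) (h3 : |r.2.2| + 1 ≤ B) :
    OnGrid (q * M) B (rnd q M k r).1 ∧ OnGrid (q * M) B (rnd q M k r).2.1 ∧
      OnGrid (q * M) B (rnd q M k r).2.2 := by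
  have hq' : (0 : ℚ) < q := by exact_mod_cast hq
  have hM : (0 : ℚ) < M := by exact_mod_cast (by omega : 0 < M)
  refine ⟨⟨⟨⌊r.1 * q⌋ * M + k, ?_⟩, near_bd hq (first_near hq hk _) h1⟩,
    ⟨⟨⌊r.2.1 * q⌋ * M, ?_⟩, near_bd hq (floor_near hq _) h2⟩,
    ⟨⟨⌊r.2.2 * q⌋ * M, ?_⟩, near_bd hq (floor_near hq _) h3⟩⟩
  · simp only [rnd]; push_cast; rfl
  · simp only [rnd]; push_cast; field_simp
  · simp only [rnd]; push_cast; field_simp

theorem OnGrid.mono {q B B' : ℕ} {t : ℚ} (h : OnGrid q B t) (hB : B ≤ B') : OnGrid q B' t :=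
  ⟨h.1, h.2.trans (by exact_mod_cast hB)⟩

theorem OnGrid.size {q B : ℕ} {t : ℚ} (h : OnGrid q B t) (hq : 1 ≤ q) :
    t.num.natAbs ≤ B * q ∧ t.den ≤ q := by
  obtain ⟨⟨z, hz⟩, hB⟩ := h
  have h1 : t.den ≤ q := by
    have : (t.den : ℤ) ∣ (q : ℤ) := by
      have := Rat.den_dvd z (q : ℤ)
      rw [Rat.divInt_eq_div] at this
      rw [hz]
      exact_mod_cast this
    exact Nat.le_of_dvd hq (by exact_mod_cast this)
  refine ⟨?_, h1⟩
  have h2 : (t.num : ℚ) = t * t.den := (Rat.mul_den_eq_num t).symm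
  have h3 : ((t.num.natAbs : ℕ) : ℚ) ≤ B * q := by
    rw [Nat.cast_natAbs, Int.cast_abs, h2, abs_mul, Nat.abs_cast]
    exact mul_le_mul hB (by exact_mod_cast h1) (Nat.cast_nonneg _) (Nat.cast_nonneg _)
  exact_mod_cast h3

theorem len_pairW (x y : Word) : (pairW x y).length = 2 * x.length + 1 + y.length := by
  induction x with
  | nil => simp [pairW]; omega
  | cons b x ih => simp only [pairW, List.length_cons, ih]; omega

theorem len_listW_ge (l : List Word) : l.length ≤ (listW l).length := by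
  induction l with
  | nil => simp
  | cons x l ih => simp only [listW, len_pairW, List.length_cons]; omega

theorem len_listW_le (l : List Word) {B : ℕ} (h : ∀ x ∈ l, x.length ≤ B) :
    (listW l).length ≤ l.length * (2 * B + 1) := by
  induction l with
  | nil => simp [listW]
  | cons x l ih =>
    have h1 := h x (List.mem_cons_self ..)
    have h2 := ih fun y hy => h y (List.mem_cons_of_mem _ hy)
    simp only [listW, len_pairW, List.length_cons]
    rw [add_mul]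
    omega

theorem len_bits (n : ℕ) : n.bits.length ≤ n := by
  rw [Nat.size_eq_bits_len, Nat.size_le]
  exact Nat.lt_two_pow_self

theorem len_ratW {t : ℚ} {B : ℕ} (h1 : t.num.natAbs ≤ B) (h2 : t.den ≤ B) :
    (ratW t).length ≤ 9 * B := by
  have a1 := len_bits t.num.natAbs
  have a2 := len_bits t.den
  have a3 := t.den_pos
  simp only [ratW, listW, len_pairW, List.length_cons, List.length_nil]
  omega

theorem code_ge (I : Instance) : I.nuclei.length ≤ I.code.length := by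
  have := len_listW_ge (I.nuclei.map fun n =>
    listW [ratW n.1.1, ratW n.1.2.1, ratW n.1.2.2, n.2.bits])
  rw [List.length_map] at this
  simp only [Instance.code, listW, len_pairW] at this ⊢
  omega

theorem code_le (I : Instance) {B : ℕ} (hB : 1 ≤ B) (hM : 1 ≤ I.nuclei.length) (hN : I.N ≤ B)
    (h : ∀ n ∈ I.nuclei, (ratW n.1.1).length ≤ 9 * B ∧ (ratW n.1.2.1).length ≤ 9 * B ∧
      (ratW n.1.2.2).length ≤ 9 * B ∧ n.2 ≤ B)
    (ha : (ratW I.a).length ≤ 9 * B) (hb : (ratW I.b).length ≤ 9 * B) :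
    I.code.length ≤ 300 * (I.nuclei.length * B) := by
  have h1 := len_listW_le (I.nuclei.map fun n =>
    listW [ratW n.1.1, ratW n.1.2.1, ratW n.1.2.2, n.2.bits]) (B := 60 * B) (by
      intro x hx
      obtain ⟨n, hn, rfl⟩ := List.mem_map.1 hx
      obtain ⟨a1, a2, a3, a4⟩ := h n hn
      have a5 := len_bits n.2
      simp only [listW, len_pairW, List.length_nil]
      omega)
  rw [List.length_map] at h1
  have h2 : I.nuclei.length * (2 * (60 * B) + 1) ≤ 121 * (I.nuclei.length * B) := by nlinarith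
  have h3 : B ≤ I.nuclei.length * B := Nat.le_mul_of_pos_left _ hM
  have h4 : (unaryW I.N).length = I.N := by simp [unaryW]
  simp only [Instance.code, listW, len_pairW, List.length_nil] at h1 ⊢
  omega

theorem sum_getD {α : Type} (l : List α) (a : α) (F : α → ℝ) :
    ∑ k ∈ range l.length, F (l.getD k a) = (l.map F).sum := by
  induction l with
  | nil => simp
  | cons x l ih =>
    rw [List.length_cons, sum_range_succ', List.map_cons, List.sum_cons, ← ih, add_comm]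
    simp

theorem sum_rep {α β : Type} (l : List α) (w : α → ℕ) (g : α → β) (F : β → ℝ) :
    ((l.flatMap fun n => List.replicate (w n) (g n)).map F).sum =
      (l.map fun n => (w n : ℝ) * F (g n)).sum := by
  induction l with
  | nil => simp
  | cons x l ih =>
    rw [List.flatMap_cons, List.map_append, List.sum_append, ih, List.map_cons, List.sum_cons,
      List.map_replicate, List.sum_replicate, nsmul_eq_mul]

theorem sum_range_list (n : ℕ) (f : ℕ → ℝ) : ((List.range n).map f).sum = ∑ i ∈ range n, f i := by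
  induction n with
  | zero => simp
  | succ n ih => rw [List.range_succ, sum_range_succ]; simp [ih]

end

end Vale.Agent.N370
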