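import Vale.Agent.P370Z.Fin.Main

/-!
The hard instances with all charges multiplied by `Z` and all lengths divided by `Z`.
-/

namespace Vale.Agent.N370

open MeasureTheory Finset Vale.Agent.P370Z Vale.Agent.P370Z.Cst

noncomputable section

/-- The instance with charges multiplied by `Z`. -/
def instZ (c : Cst) (Z : ℕ) (d : CD) : Instance where
  nuclei := (c.nuclei d).map fun n => ((n.1.1 / Z, n.1.2.1 / Z, n.1.2.2 / Z), Z * n.2)
  N := d.NN
  a := (Z * c.lam d) ^ 2 * (c.ebase d + 29 / 100 * (c.sig d / Z))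
  b := (Z * c.lam d) ^ 2 * (c.ebase d + 37 / 100 * (c.sig d / Z))

variable {c : Cst} (d : CD) {A : ℝ} {Z : ℕ}

attribute [local irreducible] kt kT k1 k2 k3 kM kL km eT eN eF eX eY p CD.nT CD.nu CD.nE CD.nD
  CD.SS CD.nq nW nC lam Tq tq bq Tc Cst.E0 sig

theorem scPot_instZ (hZ : 1 ≤ Z) (l0 : 0 < (c.lam d : ℝ)) :
    scPot (instZ c Z d) ((Z : ℝ) * c.lam d) = scPot (c.inst d) (c.lam d) := by
  have hZ1 : (Z : ℝ) ≠ 0 := by exact_mod_cast (by omega : Z ≠ 0)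
  funext x
  unfold scPot
  simp only [instZ, inst, List.map_map]
  congr 2
  refine List.map_congr_left fun n _ => ?_
  have e : ((Z : ℝ) * c.lam d) • pt (n.1.1 / Z, n.1.2.1 / Z, n.1.2.2 / Z) =
      (c.lam d : ℝ) • pt n.1 := by
    funext k
    fin_cases k <;> simp [pt] <;> field_simp
  simp only [Function.comp_apply, e]
  congr 1
  push_cast
  field_simp

theorem instZ_a : (((instZ c Z d).a : ℚ) : ℝ) = ((Z : ℝ) * c.lam d) ^ 2 *
    (d.NN * (c.E0 d + c.ω / 2) - 2 * nC d.nE d.nD * c.Tc d + 29 / 100 * (c.sig d / Z)) := by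
  simp only [instZ, ebase, ω]
  push_cast
  rfl

theorem instZ_b : (((instZ c Z d).b : ℚ) : ℝ) = ((Z : ℝ) * c.lam d) ^ 2 *
    (d.NN * (c.E0 d + c.ω / 2) - 2 * nC d.nE d.nD * c.Tc d + 37 / 100 * (c.sig d / Z)) := by
  simp only [instZ, ebase, ω]
  push_cast
  rfl

theorem sig_geZ (h : c.Best A) (hZ : 1 ≤ Z) (hZP : 19 * Z ≤ 4 ^ c.g0) :
    c.P d ^ (c.ez - 7) ≤ 3 / 100 * ((c.sig d : ℝ) / Z) := by
  have hZ1 : (1 : ℝ) ≤ Z := by exact_mod_cast hZ
  have hZ2 : 19 * (Z : ℝ) ≤ c.P d := by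
    have := hZP.trans (c.g0_le_p d)
    unfold P; exact_mod_cast this
  have hP := h.P2 d
  have hP7 := h.P_big d
  have hP0 : 0 < c.P d := by linarith
  obtain ⟨l0, -, l2⟩ := h.lam_bd d
  have hS := c.SS_le_p d
  have h1 : (nW d.nE d.nD : ℝ) ≤ 2 * c.P d := by
    have : nW d.nE d.nD ≤ 2 * c.p d := by unfold nW; unfold CD.SS at hS; omega
    unfold P; exact_mod_cast this
  have h2 : (d.nu : ℝ) ≤ c.P d := by
    have : d.nu ≤ c.p d := by unfold CD.SS at hS; omega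
    unfold P; exact_mod_cast this
  have h4 : (3 * d.nT + 1 : ℝ) ≤ 3 * c.P d := by
    have : 3 * d.nT + 1 ≤ 3 * c.p d := by unfold CD.SS at hS; omega
    unfold P; exact_mod_cast this
  have h5 := nW_pos d
  have h6 := nu_pos d
  have ha : 9 / (68 * (2 * c.P d)) ≤ al d ^ 2 := by rw [al_sq]; gcongr
  have hR : 0 < c.Rn d := by unfold Rn; positivity
  rw [sig_eq, show al d ^ 4 = (al d ^ 2) ^ 2 by ring]
  calc c.P d ^ (c.ez - 7) = 1 / (c.P d ^ (3 * c.km) * c.Rn d * c.P d ^ 5 * c.P d ^ 2) := by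
        rw [show c.ez - 7 = -((3 * c.km + (c.k1 + 1) + 5 + 2 : ℕ) : ℤ) by unfold ez; omega, zpow_neg,
          zpow_natCast, pow_add, pow_add, pow_add, one_div]
        rfl
    _ ≤ 1 / (c.P d ^ (3 * c.km) * c.Rn d * c.P d ^ 5 * (10 ^ 7 * 19 * Z)) := by
        have : 10 ^ 7 * 19 * (Z : ℝ) ≤ c.P d ^ 2 := by nlinarith
        gcongr
    _ ≤ 3 / 100 * ((9 / (68 * (2 * c.P d))) ^ 2 /
        (8192 * c.P d ^ (3 * c.km) * c.Rn d * c.P d ^ 2 * (3 * c.P d)) / Z) := by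
        have : 3 / 100 * ((9 / (68 * (2 * c.P d))) ^ 2 /
          (8192 * c.P d ^ (3 * c.km) * c.Rn d * c.P d ^ 2 * (3 * c.P d)) / Z) =
          1 / (c.P d ^ (3 * c.km) * c.Rn d * c.P d ^ 5 * (100 * 136 ^ 2 * 8192 / 81 * Z)) := by
          field_simp
          norm_num
        rw [this]
        gcongr
        norm_num
    _ ≤ _ := by gcongr

theorem lowZ (h : c.Best A) (hZ : 1 ≤ Z) (hZP : 19 * Z ≤ 4 ^ c.g0)
    (hk : KitLow d.blkF d.UF d.WF (3 / 5 / ((3 * d.nT + 1) * (d.nu : ℝ) ^ 2))) :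
    ((((instZ c Z d).b : ℚ) : ℝ) : EReal) ≤ (instZ c Z d).groundEnergy := by
  have h3 := h.exps
  have hP := h.P2 d
  have hP7 := h.P_big d
  have hP0 : 0 < c.P d := by linarith
  obtain ⟨f, r, δ, τ, S, S', ϱ, ε, η, hob, hct, hδ, hτ, hε, hη, oδ, oτ, oε, oη⟩ := h.onebody d
  obtain ⟨s1, s2, s3, s4⟩ := sizes (c := c) d
  obtain ⟨l0, og0, -⟩ := h.lam_bd d
  have hZ1 : (1 : ℝ) ≤ Z := by exact_mod_cast hZ
  have lZ : 0 < (Z : ℝ) * c.lam d := by positivity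
  have og : Ob (c.P d) (1 / ((Z : ℝ) * c.lam d)) (1 - 3 * c.km) := by
    refine Ob.of_abs_le ?_ og0
    rw [abs_of_nonneg (by positivity), abs_of_nonneg (by positivity)]
    exact one_div_le_one_div_of_le l0 (by nlinarith)
  obtain ⟨a0, a1⟩ := al_bd d
  obtain ⟨oT, hT⟩ := h.T_bd d
  obtain ⟨ot, ht⟩ := h.t_bd d
  have hb := h.b_eq d
  have hb0 : (0 : ℝ) < c.bq d := by rw [hb]; exact zpow_pos hP0 _
  have z1 : c.ez = -(3 * c.km + c.k1 + 1) := rfl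
  have hν := nu_pos d
  have hnT : (0 : ℝ) ≤ d.nT := Nat.cast_nonneg _
  have hR : 0 < c.Rn d := by unfold Rn; positivity
  have hκ0 : 0 ≤ 2 / (3 * c.Rn d) := by positivity
  have oκ : Ob (c.P d) (2 / (3 * c.Rn d)) (-(c.k1 + 1)) := by
    have := (h.kap d (x := 2 / 3) (by norm_num) (by norm_num) (y := 1) le_rfl).2
    rwa [one_mul, div_div] at this
  have eT : ((c.Tc d : ℚ) : ℝ) = 2 * c.Tq d - c.tq d - c.bq d := by unfold Tc; push_cast; rfl
  have hTc : (c.Tq d : ℝ) ≤ c.Tc d := by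
    have o1 := (ot.add' hP (hb ▸ Ob.zp hP (c.ez + 20)) (c := c.ez + c.kT - 1) (by omega)
      (by omega)).le
    rw [eT]; linarith only [o1, hT]
  have hγ : c.P d ^ (c.ez + 19) ≤ (c.bq d : ℝ) / 40 := by
    rw [hb, show c.ez + 20 = c.ez + 19 + 1 by ring, zpow_add_one₀ hP0.ne', le_div_iff₀ (by norm_num)]
    have := zpow_pos hP0 (c.ez + 19)
    gcongr
    linarith
  have o2 : Ob (c.P d) 2 1 := Ob.of_le (by norm_num) hP
  have o3 : Ob (c.P d) 3 1 := Ob.of_le (by norm_num) (by linarith)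
  have oP := Ob.self hP
  have hb1 : al d ^ 4 * (3 / 5 / ((3 * d.nT + 1) * (d.nu : ℝ) ^ 2)) ≤ 1 := by
    refine mul_le_one₀ (pow_le_one₀ a0 a1) (by positivity) ?_
    rw [div_le_one (by positivity)]
    have : (1 : ℝ) ≤ (d.nu : ℝ) ^ 2 := one_le_pow₀ hν
    nlinarith only [this, hnT]
  rw [instZ_b]
  refine bridge_low (instZ c Z d) _ _ lZ fun Ψ hΨ => ?_
  rw [scPot_instZ d hZ l0]
  refine le_trans ?_
    (mb_low (c.inst d).N _ s1 _ (h.potOK d) f r _ _ _ δ τ hob d.blkF _ _ S S' ϱ _ _ ε η hct _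
      (mf_low _ d.blkF _ _ _ ((kit_struct d).2.2.1.smul _) (hk.smul (al d))) (amp_le d).1
      (amp_le d).2 (1 / ((Z : ℝ) * c.lam d)) (c.P d) (by linarith) s2 s3 s4 (by positivity) hκ0
      (by positivity) hb1 (by positivity) ?_ ?_ hδ hτ hε (oε.le_one hP (by omega)) Ψ hΨ)
  · have hn : 0 ≤ nsq Ψ := sum_nonneg fun s _ => integral_nonneg fun x => sq_nonneg _
    refine mul_le_mul_of_nonneg_right ?_ hn
    have e1 : 1 / ((Z : ℝ) * c.lam d) * (2 / (3 * c.Rn d)) *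
        (al d ^ 4 * (3 / 5 / ((3 * d.nT + 1) * (d.nu : ℝ) ^ 2))) = 2 / 5 * (c.sig d / Z) := by
      rw [sig_eq]; field_simp
    have e2 := ((((oP.mul hP oδ).add' hP
      ((o2.mul hP (((oP.pow hP 2).mul hP oτ).pow hP 2)).div hP (hT.trans hTc)) (c := c.ez - 9)
      (by omega) (by omega)).add' hP
      ((o2.mul hP (((og.mul hP oκ).mul hP (oP.pow hP 3)).pow hP 2)).div hP hγ) (c := c.ez - 8)
      (by omega) (by omega)).add' hP
      ((((o3.mul hP og).mul hP oκ).mul hP (oP.pow hP 5)).mul hP oε) (c := c.ez - 7)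
      (by omega) (by omega)).le
    have e3 := sig_geZ d h hZ hZP
    rw [e1, card_core]
    change (d.NN : ℝ) * _ - _ + _ ≤ (d.NN : ℝ) * _ - _ + _ - _
    linarith only [e2, e3]
  · have o1 := (Ob.mono hP (hb ▸ Ob.zp hP (c.ez + 20)) (b := c.ez + c.kT - 1) (by omega)).le
    linarith only [o1, hT, hTc, hb0]
  · exact (((o2.mul hP og).mul hP oκ).mono hP (by omega)).le.trans hγ

theorem upZ (h : c.Best A) (hZ : 1 ≤ Z) (hZP : 19 * Z ≤ 4 ^ c.g0)
    (hk : KitUp d.blkF d.UF d.WF (9 / 25 / ((3 * d.nT + 1) * (d.nu : ℝ) ^ 2))) :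
    (instZ c Z d).groundEnergy ≤ ((((instZ c Z d).a : ℚ) : ℝ) : EReal) := by
  have h3 := h.exps
  have hP := h.P2 d
  have hP7 := h.P_big d
  have hP0 : 0 < c.P d := by linarith
  obtain ⟨f, r, δ, τ, S, S', ϱ, ε, η, hob, hct, hδ, hτ, hε, hη, oδ, oτ, oε, oη⟩ := h.onebody d
  obtain ⟨s1, s2, s3, s4⟩ := sizes (c := c) d
  obtain ⟨l0, og0, -⟩ := h.lam_bd d
  have hZ1 : (1 : ℝ) ≤ Z := by exact_mod_cast hZ
  have lZ : 0 < (Z : ℝ) * c.lam d := by positivity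
  have og : Ob (c.P d) (1 / ((Z : ℝ) * c.lam d)) (1 - 3 * c.km) := by
    refine Ob.of_abs_le ?_ og0
    rw [abs_of_nonneg (by positivity), abs_of_nonneg (by positivity)]
    exact one_div_le_one_div_of_le l0 (by nlinarith)
  have z1 : c.ez = -(3 * c.km + c.k1 + 1) := rfl
  have hν := nu_pos d
  have hnT : (0 : ℝ) ≤ d.nT := Nat.cast_nonneg _
  have hR : 0 < c.Rn d := by unfold Rn; positivity
  have hκ0 : 0 ≤ 5 / (7 * c.Rn d) := by positivity
  have oκ : Ob (c.P d) (5 / (7 * c.Rn d)) (-(c.k1 + 1)) := by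
    have := (h.kap d (x := 5 / 7) (by norm_num) (by norm_num) (y := 1) le_rfl).2
    rwa [one_mul, div_div] at this
  have o3 : Ob (c.P d) 3 1 := Ob.of_le (by norm_num) (by linarith)
  have oP := Ob.self hP
  obtain ⟨cc, hcc⟩ := mf_up (C := Core d.nE d.nD) (c.inst d).N s1 d.blkF _ _ _
    ((kit_struct d).2.2.1.smul _) (hk.smul (al d))
  obtain ⟨Ψ, h1, h2, h4⟩ := mb_up (c.inst d).N _ (h.potOK d) f r _ _ _ δ τ hob d.blkF _ _ S S' ϱ
    _ _ ε η hct _ cc hcc (amp_le d).1 (amp_le d).2 (1 / ((Z : ℝ) * c.lam d)) (c.P d) (by linarith) s2 s3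
    s4 (by positivity) hκ0 hδ hε (oε.le_one hP (by omega)) hη
  rw [instZ_a]
  refine bridge_up (instZ c Z d) _ _ lZ ⟨Ψ, h1, h2, ?_⟩
  rw [scPot_instZ d hZ l0]
  refine h4.trans (mul_le_mul_of_nonneg_right ?_ h2.le)
  have e1 : 1 / ((Z : ℝ) * c.lam d) * (5 / (7 * c.Rn d)) *
      (al d ^ 4 * (9 / 25 / ((3 * d.nT + 1) * (d.nu : ℝ) ^ 2))) = 9 / 35 * (c.sig d / Z) := by
    rw [sig_eq]; field_simp; ring
  have e2 := ((((oP.pow hP 2).mul hP oδ).add' hP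
    ((((o3.mul hP og).mul hP oκ).mul hP (oP.pow hP 5)).mul hP oε) (c := c.ez - 9)
    (by omega) (by omega)).add' hP
    ((og.mul hP (oP.pow hP 4)).mul hP oη) (c := c.ez - 7) (by omega) (by omega)).le
  have e3 := sig_geZ d h hZ hZP
  have e4 : 0 < c.P d ^ (c.ez - 7) := zpow_pos hP0 _
  rw [e1, card_core]
  change (d.NN : ℝ) * _ - _ + _ + _ ≤ (d.NN : ℝ) * _ - _ + _
  linarith only [e2, e3, e4]

end

end Vale.Agent.N370
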