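import Vale.Agent.N370.Scale
import Vale.Agent.N370.Round

/-!
Bounds on the numbers in the hard instances.
-/

namespace Vale.Agent.N370

open Finset Vale.Agent.P370Z Vale.Agent.P370Z.Cst

noncomputable section

variable {c : Cst} (d : CD) {A : ℝ} {Z : ℕ}

attribute [local irreducible] kt kT k1 k2 k3 kM kL km eT eN eF eX eY p CD.nT CD.nu CD.nE CD.nD
  CD.SS CD.nq nW nC lam Tq tq bq Tc Cst.E0 sig Cst.m

theorem p_le_m (h : c.Best A) : c.p d ≤ c.m d := by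
  have h3 := h.exps
  unfold Cst.m
  exact Nat.le_self_pow (by omega) _

theorem m_big (h : c.Best A) : 10 ^ 7 ≤ c.m d := (h.p_big d).trans (p_le_m d h)

theorem L_eq : c.L d = c.m d ^ 4 := by
  unfold Cst.L Cst.m
  rw [← pow_mul, mul_comm]

theorem Lz_le (h : c.Best A) : c.Lz d ≤ c.m d := by
  have h3 := h.exps
  have hp := h.p_big d
  have h1 : c.p d ^ (c.kL + 1) ≤ c.m d := by
    unfold Cst.m
    exact h.pow_le d (show c.kL + 1 ≤ c.km by omega)
  have h2 : 1 ≤ c.p d ^ c.kL := Nat.one_le_pow _ _ (by omega)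
  rw [pow_succ] at h1
  unfold Cst.Lz Cst.L1
  nlinarith

theorem P_pow_km : c.P d ^ c.km = (c.m d : ℝ) := by
  unfold P Cst.m
  push_cast
  rfl

theorem lam_ge (h : c.Best A) : c.P d ^ (3 * (c.km : ℤ) - 1) ≤ (c.lam d : ℝ) := by
  obtain ⟨l0, og, -⟩ := h.lam_bd d
  have hP := h.P2 d
  have h1 := og.le
  rw [show (1 : ℤ) - 3 * c.km = -(3 * (c.km : ℤ) - 1) by ring, zpow_neg, ← one_div] at h1
  exact (one_div_le_one_div l0 (zpow_pos (by linarith) _)).1 h1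

theorem lam_ge_one (h : c.Best A) : (1 : ℝ) ≤ c.lam d := by
  have h3 := h.exps
  have hP := h.P2 d
  exact (one_le_zpow₀ (by linarith) (by omega)).trans (lam_ge d h)

theorem lam_le (h : c.Best A) : (c.lam d : ℝ) ≤ (c.m d : ℝ) ^ 4 := by
  obtain ⟨-, -, l2⟩ := h.lam_bd d
  have hm : (10 : ℝ) ^ 7 ≤ c.m d := by exact_mod_cast m_big d h
  rw [mul_comm 3, pow_mul, P_pow_km] at l2
  have : (0 : ℝ) < (c.m d : ℝ) ^ 3 := by positivity
  nlinarith

theorem xi_bd {m l n : ℕ} (hn : n < 6 * m * l) : |(xi m l n : ℚ)| ≤ l := by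
  have hm : 0 < m := by
    rcases Nat.eq_zero_or_pos m with h | h
    · rw [h] at hn; omega
    · exact h
  have hm' : (0 : ℚ) < m := by exact_mod_cast hm
  have h1 : (2 * (n : ℚ) + 1) / (6 * m) ≤ 2 * l := by
    rw [div_le_iff₀ (by positivity)]
    have : 2 * n + 1 ≤ 2 * l * (6 * m) := by nlinarith
    exact_mod_cast this
  have h2 : (0 : ℚ) ≤ (2 * (n : ℚ) + 1) / (6 * m) := by positivity
  unfold xi
  exact abs_le.2 ⟨by linarith, by linarith⟩

theorem solve_bd {D : ℕ} (hD : 1 ≤ D) (φ : ℚ → ℚ) (ξ : ℚ) : |solve D φ ξ| ≤ |ξ| + 2 := by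
  unfold solve
  set l := ((List.range (2 * D + 1)).takeWhile
    fun j : ℕ => decide (φ (ξ + ((j : ℚ) - D) / D) ≤ ξ)).length with hl
  have h1 : l ≤ 2 * D + 1 := by
    have := (List.takeWhile_sublist (l := List.range (2 * D + 1))
      fun j : ℕ => decide (φ (ξ + ((j : ℚ) - D) / D) ≤ ξ)).length_le
    rwa [List.length_range] at this
  have hD' : (1 : ℚ) ≤ D := by exact_mod_cast hD
  have h2 : (l : ℚ) ≤ 2 * D + 1 := by exact_mod_cast h1
  have h3 : (0 : ℚ) ≤ l := Nat.cast_nonneg _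
  have h4 : |((l : ℚ) - D) / D| ≤ 2 := by
    rw [abs_div, abs_of_pos (by linarith : (0 : ℚ) < D), div_le_iff₀ (by linarith)]
    exact abs_le.2 ⟨by linarith, by linarith⟩
  exact (abs_add_le _ _).trans (by linarith)

theorem wt_bd (n : ℕ) : 2 ≤ wt n ∧ wt n ≤ 3 := by
  unfold wt
  split_ifs <;> omega

theorem div_bd {t l B : ℚ} (hl : 1 ≤ l) (h : |t| ≤ B) : |t / l| ≤ B := by
  rw [abs_div, abs_of_pos (by linarith : 0 < l), div_le_iff₀ (by linarith)]
  have := abs_nonneg t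
  nlinarith

theorem nuc_bd (h : c.Best A) {n : (ℚ × ℚ × ℚ) × ℕ} (hn : n ∈ c.nuclei d) :
    1 ≤ n.2 ∧ n.2 ≤ 27 ∧ |n.1.1| ≤ (c.m d : ℚ) ^ 4 + 3 ∧ |n.1.2.1| ≤ (c.m d : ℚ) ^ 4 + 3 ∧
      |n.1.2.2| ≤ (c.m d : ℚ) ^ 4 + 3 := by
  simp only [Cst.nuclei, List.mem_flatMap, List.mem_map, List.mem_range] at hn
  obtain ⟨i, hi, n0, h0, n1, h1, n2, h2, rfl⟩ := hn
  have hl : (1 : ℚ) ≤ c.lam d := by exact_mod_cast lam_ge_one d h
  have hm := m_big d h
  have hD : 1 ≤ c.Del d := by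
    unfold Cst.Del
    exact Nat.mul_pos (by omega) (Nat.pow_pos (c.p_pos d))
  have hD' : (1 : ℚ) ≤ c.Del d := by exact_mod_cast hD
  have x0 := xi_bd h0
  have x1 := xi_bd h1
  have x2 := xi_bd h2
  have hL : (c.L d : ℚ) = (c.m d : ℚ) ^ 4 := by rw [L_eq]; push_cast; rfl
  have hLz : (c.Lz d : ℚ) ≤ (c.m d : ℚ) ^ 4 := by
    have : c.Lz d ≤ c.m d ^ 4 := (Lz_le d h).trans (Nat.le_self_pow (by norm_num) _)
    exact_mod_cast this
  rw [hL] at x0 x1
  have hi' : |(i : ℚ) / (4 * c.Del d)| ≤ 1 := by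
    have : (i : ℚ) ≤ 3 := by exact_mod_cast hi.le
    rw [abs_of_nonneg (by positivity), div_le_one (by positivity)]
    linarith
  have w0 := wt_bd n0
  have w1 := wt_bd n1
  have w2 := wt_bd n2
  refine ⟨?_, ?_, div_bd hl ?_, div_bd hl ?_, div_bd hl ?_⟩
  · exact Nat.mul_pos (Nat.mul_pos (by omega) (by omega)) (by omega)
  · exact (Nat.mul_le_mul (Nat.mul_le_mul w0.2 w1.2) w2.2)
  · simp only [Cst.node]
    refine (abs_add_le _ _).trans ?_
    split_ifs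
    · have := solve_bd hD (fun x => x + c.dF d 0 x (xi (c.m d) (c.L d) n1)
        (xi (c.m d) (c.Lz d) n2) / c.rho) (xi (c.m d) (c.L d) n0)
      linarith
    · linarith
  · simp only [Cst.node]
    split_ifs
    · exact (solve_bd hD _ _).trans (by linarith)
    · linarith
  · simp only [Cst.node]
    split_ifs
    · exact (solve_bd hD _ _).trans (by linarith)
    · linarith

theorem nuc_len : (c.nuclei d).length =
    3 * (6 * c.m d * c.L d * (6 * c.m d * c.L d * (6 * c.m d * c.Lz d))) := by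
  simp only [Cst.nuclei, List.length_flatMap, List.length_map, List.length_range,
    List.map_const', List.sum_replicate, smul_eq_mul]

/-- The positions of the nuclei of charge `Z`, with repetitions. -/
def posL (c : Cst) (Z : ℕ) (d : CD) : List (ℚ × ℚ × ℚ) :=
  (c.nuclei d).flatMap fun n => List.replicate (min n.2 27) (n.1.1 / Z, n.1.2.1 / Z, n.1.2.2 / Z)

theorem len_rep {α β : Type} (l : List α) (w : α → ℕ) (g : α → β) (h : ∀ n ∈ l, 1 ≤ w n ∧ w n ≤ 27) :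
    l.length ≤ (l.flatMap fun n => List.replicate (w n) (g n)).length ∧
      (l.flatMap fun n => List.replicate (w n) (g n)).length ≤ 27 * l.length := by
  induction l with
  | nil => simp
  | cons x l ih =>
    have h1 := h x (List.mem_cons_self ..)
    have h2 := ih fun y hy => h y (List.mem_cons_of_mem _ hy)
    rw [List.flatMap_cons, List.length_append, List.length_replicate, List.length_cons]
    omega

theorem pos_len (h : c.Best A) :
    c.m d ≤ (posL c Z d).length ∧ (posL c Z d).length ≤ c.m d ^ 13 := by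
  have h1 := len_rep (c.nuclei d) (fun n => min n.2 27)
    (fun n => ((n.1.1 / Z, n.1.2.1 / Z, n.1.2.2 / Z) : ℚ × ℚ × ℚ)) fun n hn => by
      have := nuc_bd d h hn
      omega
  rw [nuc_len, L_eq] at h1
  have hm := m_big d h
  have hz := Lz_le d h
  have hz1 : 1 ≤ c.Lz d := by unfold Cst.Lz; omega
  unfold posL
  generalize c.m d = m at *
  generalize c.Lz d = z at *
  have hm0 : 0 < m := by omega
  constructor
  · refine le_trans ?_ h1.1
    have a1 : m ≤ 6 * m * m ^ 4 := by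
      have : 1 ≤ m ^ 4 := Nat.one_le_pow _ _ hm0
      nlinarith
    have a2 : 1 ≤ 6 * m * m ^ 4 * (6 * m * z) := Nat.mul_pos (by omega) (by positivity)
    nlinarith
  · refine h1.2.trans ?_
    calc 27 * (3 * (6 * m * m ^ 4 * (6 * m * m ^ 4 * (6 * m * z))))
        ≤ 27 * (3 * (6 * m * m ^ 4 * (6 * m * m ^ 4 * (6 * m * m)))) := by gcongr
      _ = 17496 * m ^ 12 := by ring
      _ ≤ m * m ^ 12 := by gcongr; omega
      _ = m ^ 13 := by ring

theorem pos_bd (h : c.Best A) (hZ : 1 ≤ Z) {r : ℚ × ℚ × ℚ} (hr : r ∈ posL c Z d) :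
    |r.1| + 1 ≤ (c.m d ^ 5 : ℕ) ∧ |r.2.1| + 1 ≤ (c.m d ^ 5 : ℕ) ∧ |r.2.2| + 1 ≤ (c.m d ^ 5 : ℕ) := by
  simp only [posL, List.mem_flatMap, List.mem_replicate] at hr
  obtain ⟨n, hn, -, rfl⟩ := hr
  obtain ⟨-, -, h1, h2, h3⟩ := nuc_bd d h hn
  have hZ' : (1 : ℚ) ≤ Z := by exact_mod_cast hZ
  have hm : (10 : ℚ) ^ 7 ≤ c.m d := by exact_mod_cast m_big d h
  have h4 : (c.m d : ℚ) ^ 4 + 4 ≤ (c.m d ^ 5 : ℕ) := by
    push_cast
    have : (1 : ℚ) ≤ (c.m d : ℚ) ^ 4 := one_le_pow₀ (by linarith)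
    nlinarith
  have a1 := div_bd hZ' h1
  have a2 := div_bd hZ' h2
  have a3 := div_bd hZ' h3
  exact ⟨by linarith, by linarith, by linarith⟩

theorem sig_bd (h : c.Best A) : 0 ≤ (c.sig d : ℝ) ∧ (c.sig d : ℝ) ≤ 1 := by
  obtain ⟨a0, a1⟩ := al_bd d
  have hl := lam_ge_one d h
  have hν := nu_pos d
  have hP := h.P2 d
  have hR : 1 ≤ c.Rn d := by unfold Rn; exact one_le_pow₀ (by linarith)
  have hT : (0 : ℝ) ≤ d.nT := Nat.cast_nonneg _
  rw [sig_eq]
  refine ⟨by positivity, ?_⟩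
  rw [div_le_one (by positivity)]
  refine (pow_le_one₀ a0 a1).trans ?_
  exact one_le_mul_of_one_le_of_one_le (one_le_mul_of_one_le_of_one_le
    (one_le_mul_of_one_le_of_one_le hl hR) (one_le_pow₀ hν)) (by linarith)

theorem ebase_bd (h : c.Best A) (hκ : |kap0| + 1 ≤ 4 ^ c.g0) :
    |(d.NN : ℝ) * (c.E0 d + c.ω / 2) - 2 * nC d.nE d.nD * c.Tc d| ≤ (c.m d : ℝ) ^ 10 := by
  have h3 := h.exps
  have hP := h.P2 d
  have hm : (10 : ℝ) ^ 7 ≤ c.m d := by exact_mod_cast m_big d h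
  have hPm : c.P d ≤ c.m d := by unfold P; exact_mod_cast p_le_m d h
  have hM : (2 : ℝ) ≤ c.m d := by linarith
  have hg : (4 : ℝ) ^ c.g0 ≤ c.P d := by unfold P; exact_mod_cast c.g0_le_p d
  obtain ⟨-, n2, n3, n4⟩ := h.num.pH d
  have oN : Ob (c.m d) (d.NN : ℝ) 1 := Ob.of_le (Nat.cast_nonneg _) ((sizes (c := c) d).2.1.trans hPm)
  have oC : Ob (c.m d) (2 * nC d.nE d.nD : ℝ) 1 := by
    refine Ob.of_le (by positivity) (le_trans ?_ ((sizes (c := c) d).2.1.trans hPm))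
    have : 2 * nC d.nE d.nD ≤ d.NN := by unfold CD.NN; omega
    exact_mod_cast this
  have oρ : Ob (c.m d) (6 * c.rho : ℝ) 1 := by
    refine Ob.of_le (by positivity) (le_trans ?_ hPm)
    have : 6 * c.rho ≤ c.p d := by have := h.rho_le d; omega
    unfold P; exact_mod_cast this
  have oρ' : Ob (c.m d) (3 * c.rho / 2 : ℝ) 1 := by
    refine Ob.of_abs_le ?_ oρ
    rw [abs_of_nonneg (by positivity), abs_of_nonneg (by positivity)]
    have : (0 : ℝ) ≤ c.rho := Nat.cast_nonneg _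
    linarith
  have op : Ob (c.m d) (c.pH d : ℝ) 0 := by
    refine Ob.of_le_one ?_ (by exact_mod_cast n3)
    have : (0 : ℚ) ≤ c.pH d := by linarith
    exact_mod_cast this
  have oz : Ob (c.m d) (c.Lz d : ℝ) 1 :=
    Ob.of_le (Nat.cast_nonneg _) (by exact_mod_cast Lz_le d h)
  have oL : Ob (c.m d) (c.L d : ℝ) 4 := by
    rw [L_eq]; push_cast; exact Ob.npow hM 4
  have ok : Ob (c.m d) (c.kH d : ℝ) 1 := by
    refine Ob.const ?_
    have a1 : 1 / c.P d ^ (10 * c.km) ≤ 1 := by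
      rw [div_le_one (by positivity)]; exact one_le_pow₀ (by linarith)
    have a2 := abs_sub_abs_le_abs_sub (c.kH d : ℝ) kap0
    linarith
  have oH : Ob (c.m d) (c.H : ℝ) 1 := by
    refine Ob.of_le (Nat.cast_nonneg _) (le_trans ?_ (hg.trans hPm))
    exact_mod_cast h.Hle
  have oω : Ob (c.m d) (c.ω / 2) 1 := by
    have a1 := h.om_le.trans (h.A_le d)
    have a2 : 0 ≤ c.ω := by unfold ω; positivity
    exact Ob.of_le (by positivity) (by linarith)
  have eE : (c.E0 d : ℝ) = -(6 * c.rho * c.pH d * c.Lz d * c.L d * c.kH d) +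
      3 * c.rho / 2 * (c.Lz d : ℝ) ^ 2 - c.H := by
    unfold Cst.E0; push_cast; ring
  have oE : Ob (c.m d) (c.E0 d + c.ω / 2 : ℝ) 8 := by
    have a1 := (((oρ.mul hM op).mul hM oz).mul hM oL).mul hM ok
    have a2 := oρ'.mul hM (oz.pow hM 2)
    have b1 : |6 * (c.rho : ℝ) * c.pH d * c.Lz d * c.L d * c.kH d| ≤ (c.m d : ℝ) ^ (7 : ℤ) := a1
    have b2 := a2.mono hM (b := 7) (by norm_num)
    have b3 := oH.mono hM (b := 7) (by norm_num)
    have b4 := oω.mono hM (b := 7) (by norm_num)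
    unfold Ob at b2 b3 b4 ⊢
    rw [eE, show (8 : ℤ) = 7 + 1 by norm_num, zpow_add_one₀ (by linarith)]
    have hz : 0 < (c.m d : ℝ) ^ (7 : ℤ) := zpow_pos (by linarith) _
    have c1 := abs_le.1 b1
    have c2 := abs_le.1 b2
    have c3 := abs_le.1 b3
    have c4 := abs_le.1 b4
    exact abs_le.2 ⟨by nlinarith, by nlinarith⟩
  have z1 : c.ez = -(3 * c.km + c.k1 + 1) := rfl
  have oT : Ob (c.m d) (c.Tc d : ℝ) 1 := by
    have eT : ((c.Tc d : ℚ) : ℝ) = 2 * c.Tq d - c.tq d - c.bq d := by unfold Tc; push_cast; rfl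
    have a1 : |(c.Tq d : ℝ)| ≤ 1 := by
      simpa [Ob] using (h.T_bd d).1.mono hP (b := 0) (by omega)
    have a2 : |(c.tq d : ℝ)| ≤ 1 := by
      simpa [Ob] using (h.t_bd d).1.mono hP (b := 0) (by omega)
    have a3 : |(c.bq d : ℝ)| ≤ 1 := by
      simpa [Ob] using (h.b_eq d ▸ Ob.zp hP (c.ez + 20) :
        Ob (c.P d) (c.bq d) (c.ez + 20)).mono hP (b := 0) (by omega)
    refine Ob.const ?_
    rw [eT]
    have c1 := abs_le.1 a1
    have c2 := abs_le.1 a2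
    have c3 := abs_le.1 a3
    exact abs_le.2 ⟨by linarith, by linarith⟩
  have := (oN.mul hM oE).sub' hM (oC.mul hM oT) (c := 10) (by norm_num) (by norm_num)
  unfold Ob at this
  exact_mod_cast this

theorem thr_bd (h : c.Best A) (hZ : 1 ≤ Z) (hZP : 19 * Z ≤ 4 ^ c.g0)
    (hκ : |kap0| + 1 ≤ 4 ^ c.g0) :
    |(((instZ c Z d).a : ℚ) : ℝ)| ≤ (c.m d : ℝ) ^ 21 ∧
      |(((instZ c Z d).b : ℚ) : ℝ)| ≤ (c.m d : ℝ) ^ 21 ∧
      (c.m d : ℝ) ^ 2 ≤ ((instZ c Z d).b : ℚ) - ((instZ c Z d).a : ℚ) := by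
  have h3 := h.exps
  have hP := h.P2 d
  have hm : (10 : ℝ) ^ 7 ≤ c.m d := by exact_mod_cast m_big d h
  have hZ1 : (1 : ℝ) ≤ Z := by exact_mod_cast hZ
  have hZm : (Z : ℝ) ≤ c.m d := by
    have : Z ≤ c.m d := by have := c.g0_le_p d; have := p_le_m d h; omega
    exact_mod_cast this
  have hl1 := lam_ge_one d h
  have hl2 := lam_le d h
  obtain ⟨s0, s1⟩ := sig_bd d h
  have he := ebase_bd d h hκ
  have hs : (c.sig d : ℝ) / Z ≤ 1 := by rw [div_le_one (by linarith)]; linarith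
  have hs0 : 0 ≤ (c.sig d : ℝ) / Z := by positivity
  have hsq : ((Z : ℝ) * c.lam d) ^ 2 ≤ (c.m d : ℝ) ^ 10 := by
    calc ((Z : ℝ) * c.lam d) ^ 2 ≤ (c.m d * (c.m d : ℝ) ^ 4) ^ 2 := by gcongr
      _ = _ := by ring
  have h10 : (1 : ℝ) ≤ (c.m d : ℝ) ^ 10 := one_le_pow₀ (by linarith)
  have key : ∀ t : ℝ, 0 ≤ t → t ≤ 1 → |((Z : ℝ) * c.lam d) ^ 2 *
      (d.NN * (c.E0 d + c.ω / 2) - 2 * nC d.nE d.nD * c.Tc d + t * (c.sig d / Z))| ≤
      (c.m d : ℝ) ^ 21 := by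
    intro t t0 t1
    have a1 : |t * (c.sig d / Z)| ≤ 1 := by
      rw [abs_of_nonneg (by positivity)]
      exact mul_le_one₀ t1 hs0 hs
    have a2 := (abs_add_le _ _).trans (add_le_add he a1)
    rw [abs_mul, abs_of_nonneg (sq_nonneg _)]
    calc _ ≤ (c.m d : ℝ) ^ 10 * ((c.m d : ℝ) ^ 10 + 1) := by gcongr
      _ ≤ (c.m d : ℝ) ^ 10 * ((c.m d : ℝ) ^ 10 * c.m d) := by gcongr; nlinarith
      _ = _ := by ring
  rw [instZ_a, instZ_b]
  refine ⟨key _ (by norm_num) (by norm_num), key _ (by norm_num) (by norm_num), ?_⟩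
  have e3 := h.sig_ge d
  have hl3 := lam_ge d h
  have z1 : c.ez = -(3 * c.km + c.k1 + 1) := rfl
  have a1 : (c.m d : ℝ) ^ 2 ≤ (c.P d ^ (3 * (c.km : ℤ) - 1)) ^ 2 * c.P d ^ (c.ez - 7) := by
    rw [← P_pow_km, ← pow_mul, ← zpow_natCast, ← zpow_natCast, ← zpow_mul,
      ← zpow_add₀ (by linarith)]
    refine zpow_le_zpow_right₀ (by linarith) ?_
    push_cast
    omega
  have a2 : (c.P d ^ (3 * (c.km : ℤ) - 1)) ^ 2 * c.P d ^ (c.ez - 7) ≤
      (c.lam d : ℝ) ^ 2 * (3 / 100 * c.sig d) := by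
    have : 0 < c.P d ^ (3 * (c.km : ℤ) - 1) := zpow_pos (by linarith) _
    have : 0 < c.P d ^ (c.ez - 7) := zpow_pos (by linarith) _
    gcongr
  have a3 : ((Z : ℝ) * c.lam d) ^ 2 *
      (d.NN * (c.E0 d + c.ω / 2) - 2 * nC d.nE d.nD * c.Tc d + 37 / 100 * (c.sig d / Z)) -
      ((Z : ℝ) * c.lam d) ^ 2 *
      (d.NN * (c.E0 d + c.ω / 2) - 2 * nC d.nE d.nD * c.Tc d + 29 / 100 * (c.sig d / Z)) =
      Z * ((c.lam d : ℝ) ^ 2 * (8 / 100 * c.sig d)) := by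
    field_simp
    ring
  rw [a3]
  have a4 : 0 ≤ (c.lam d : ℝ) ^ 2 * c.sig d := by positivity
  nlinarith

end

end Vale.Agent.N370
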